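import Vale.Agent.P183.H411.Final

/-!
The extension theorem contains the one for tight fibres above; reduction of the problem.
-/

set_option linter.all false

namespace Vale.Agent.P183.H411

open Vale.Agent.P183 Vale.Agent.P183.H330 Vale.Agent.P183.H330G Vale.Agent.P183.H330D
open Vale.Agent.P183.H238
open Vale.Agent.P183.H330M (DistribOver AllBelow)

variable {L K : Type} [Lattice L] [Lattice K]

/-- Tight fibres above satisfy the conditions. -/
theorem over_of_above [Finite L] {f : LatticeHom L K} (hf : Function.Surjective f)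
    (h : TightAbove f) : TightOver f := by
  classical
  have hKf : Finite K := Finite.of_surjective f hf
  obtain ⟨lo, hi, hflo, hfhi, hlo, hhi⟩ := exists_lo_hi_fin f hf
  have hlo' : ∀ k l, k ≤ f l → lo k ≤ l := by
    intro k l h
    have h1 : f (lo k ⊓ l) = k := by rw [map_inf, hflo, inf_eq_left.2 h]
    have h3 := hlo (lo k ⊓ l)
    rw [h1] at h3
    exact h3.trans inf_le_right
  have hhi2 : ∀ q z, f z = q → z ≤ hi q := fun q z hz => by rw [← hz]; exact hhi z
  obtain ⟨N, hN, h1, h2, h3⟩ := h
  have hW : ∀ t, t ∈ N → ∀ u : K → L, CF f t u → Fam f N {l | ¬ IsMax (f l)} t u := by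
    intro t ht u hu
    refine ⟨fun q hq => ⟨hu.1 q hq, fun _ => ?_⟩, hu.2⟩
    show ¬ IsMax (f (u q))
    rw [hu.1 q hq]
    exact fun hm => absurd (hm hq.le) (not_le_of_gt hq)
  refine ⟨N, {l | ¬ IsMax (f l)}, hN, h1, fun t ht => ?_, fun t ht => ?_, fun l hl hlN => ?_⟩
  · rcases h2 t ht with h | h
    · exact (distrib_fibre hf h).1
    · exact h.1
  · have key : CompatTight f t → TightBy f N {l | ¬ IsMax (f l)} t := by
      intro hc r x y hr hx hy hxy
      obtain ⟨u, d, e1, e2, e3, e4, e5, e6⟩ := hc r x y hr hx hy hxy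
      exact ⟨u, d, hW t ht u ⟨e4, e5⟩, ⟨e1, e6⟩, e2, e3⟩
    rcases h2 t ht with h | ⟨_, h | h⟩
    · exact Or.inr (Or.inl (key (compat_of_distrib hflo hlo' h)))
    · exact Or.inr (Or.inl (key h))
    · exact Or.inr (Or.inr h)
  · obtain ⟨t, ht⟩ : ∃ t, f l = t := ⟨_, rfl⟩
    have hlm : ¬ IsMax t := by rw [← ht]; exact hl
    rw [ht] at hlN
    by_cases hd : DistribOver f t
    · left
      rw [Interpolated, ht]
      refine ⟨{u | ∃ m d, f m = t ∧ u = (fun q => m ⊓ hi q) ∧ CF f t u ∧ CutBy f t u d ∧
        ¬ d ≤ l}, ?_, ?_, ?_⟩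
      · rintro u ⟨m, d, hm, hu, hcf, hcut, hdl⟩
        exact ⟨hW t hlN u hcf, d, hcut, hdl⟩
      · intro x hx hxl
        obtain ⟨m, d, e1, e2, e3, e4, e5, e6⟩ := compat_of_distrib' hflo hfhi hlo' hhi hd hx rfl ht
          hxl
        exact ⟨_, ⟨m, d, e1, rfl, e5, ⟨e2, e6⟩, e3⟩, e4⟩
      · intro r r' hr hr' hn hn'
        have hch : ∀ r, ChainTrace f r t → ∀ u ∈ {u | ∃ m d, f m = t ∧ u = (fun q => m ⊓ hi q) ∧
            CF f t u ∧ CutBy f t u d ∧ ¬ d ≤ l}, ∀ u' ∈ {u | ∃ m d, f m = t ∧
            u = (fun q => m ⊓ hi q) ∧ CF f t u ∧ CutBy f t u d ∧ ¬ d ≤ l}, r < t →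
            u r ≤ u' r ∨ u' r ≤ u r := by
          rintro r hr u ⟨m, d, hm, hu, hcf, hcut, hdl⟩ u' ⟨m', d', hm', hu', hcf', hcut', hdl'⟩ hrt
          rcases hr m m' hm hm' with h | h
          · left
            rw [hu, hu']
            exact le_inf (h _ (by rw [map_inf, hm, hfhi, inf_eq_right.2 hrt.le]) inf_le_left)
              inf_le_right
          · right
            rw [hu, hu']
            exact le_inf (h _ (by rw [map_inf, hm', hfhi, inf_eq_right.2 hrt.le]) inf_le_left)
              inf_le_right
        by_cases hrN : r ∈ N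
        · rcases h3 t r r' hlN hlm hr hr' hn hn' hrN with h | ⟨_, h4, h5⟩
          · exact Or.inl h
          · exact Or.inr ⟨fun _ u hu u' hu' => hch r h4 u hu u' hu' hr,
              fun hr'N u hu u' hu' => hch r' (h5 hr'N) u hu u' hu' hr'⟩
        · by_cases hr'N : r' ∈ N
          · rcases h3 t r' r hlN hlm hr' hr hn' hn hr'N with h | ⟨_, h4, h5⟩
            · exact Or.inl fun x y hx hy => h x y (by rw [hx, inf_comm]) hy
            · exact Or.inr ⟨fun h => absurd h hrN,
                fun _ u hu u' hu' => hch r' h4 u hu u' hu' hr'⟩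
          · exact Or.inr ⟨fun h => absurd h hrN, fun h => absurd h hr'N⟩
    · have hall : ∀ r r', r < t → r' < t → ¬ r ≤ r' → ¬ r' ≤ r → (r ∈ N ∨ r' ∈ N) →
          ∀ x y, f x = r ⊓ r' → f y = t → x ≤ y := by
        intro r r' hr hr' hn hn' h
        rcases h with h | h
        · rcases h3 t r r' hlN hlm hr hr' hn hn' h with h4 | h4
          · exact h4
          · exact absurd h4.1 hd
        · rcases h3 t r' r hlN hlm hr' hr hn' hn h with h4 | h4
          · exact fun x y hx hy => h4 x y (by rw [hx, inf_comm]) hy
          · exact absurd h4.1 hd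
      rcases h2 t hlN with h | ⟨_, hc | ⟨r, hrN, hrt, hun, hTr⟩⟩
      · exact absurd h hd
      · left
        rw [Interpolated, ht]
        refine ⟨{u | CF f t u ∧ ∃ d, CutBy f t u d ∧ ¬ d ≤ l}, ?_, ?_, ?_⟩
        · rintro u ⟨hcf, hd⟩
          exact ⟨hW t hlN u hcf, hd⟩
        · intro x hx hxl
          obtain ⟨u, d, e1, e2, e3, e4, e5⟩ := hc.lt hflo hlo' hx rfl ht hxl
          exact ⟨u, ⟨e4, d, ⟨e1, e5⟩, e2⟩, e3⟩
        · intro r r' hr hr' hn hn'
          by_cases hrN : r ∈ N ∨ r' ∈ N
          · exact Or.inl (hall r r' hr hr' hn hn' hrN)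
          · push Not at hrN
            exact Or.inr ⟨fun h => absurd h hrN.1, fun h => absurd h hrN.2⟩
      · right
        rw [FromBelow, ht]
        refine ⟨r, hrt, hun, fun _ => ⟨l ⊓ hi r, ?_, ?_, ?_⟩⟩
        · show ¬ IsMax (f (l ⊓ hi r))
          rw [map_inf, ht, hfhi, inf_eq_right.2 hrt.le]
          exact fun hm => absurd (hm hrt.le) (not_le_of_gt hrt.lt)
        · rw [map_inf, ht, hfhi, inf_eq_right.2 hrt.le]
        · intro z hz
          exact ⟨fun h => le_inf h (hhi2 r z hz), fun h => h.trans inf_le_left⟩

/-- `L` cannot be reduced: it is subdirectly irreducible, and for every homomorphism `f` from `L`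
onto a lattice which is not injective the conditions fail for `f` and for its dual. -/
def OverIrreducible (L : Type) [Lattice L] : Prop :=
  SubdirectlyIrreducible L ∧ ∀ (K : Type) (_ : Lattice K) (f : LatticeHom L K),
    Function.Surjective f → ¬ Function.Injective f →
      ¬ TightOver f ∧ ¬ TightOver (LatticeHom.dual f)

/-- **Reduction of the problem.** -/
theorem reduction :
    (∀ (L : Type) [Lattice L] [Finite L] [Nonempty L], Representable L) ↔
      ∀ (L : Type) [Lattice L] [Finite L] [Nonempty L], OverIrreducible L → Representable L := by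
  constructor
  · intro h L _ _ _ _
    exact h L
  intro H
  have key : ∀ n, ∀ (L : Type) [Lattice L] [Finite L] [Nonempty L], Nat.card L = n →
      Representable L := by
    intro n
    induction n using Nat.strong_induction_on with
    | _ n ih =>
      intro L _ _ _ hn
      have hsm : ∀ (K : Type) (_ : Lattice K) (f : LatticeHom L K), Function.Surjective f →
          ¬ Function.Injective f → Representable K := by
        intro K _ f hs hf
        have hfin : Finite K := Finite.of_surjective _ hs
        have hnon : Nonempty K := ⟨f (Classical.arbitrary L)⟩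
        refine ih _ ?_ K rfl
        rw [← hn]
        cases nonempty_fintype L
        cases nonempty_fintype K
        rw [Nat.card_eq_fintype_card, Nat.card_eq_fintype_card]
        exact Fintype.card_lt_of_surjective_not_injective f hs hf
      have him : ∀ (K : Type) (_ : Lattice K) (f : LatticeHom L K), ¬ Function.Injective f →
          Representable (imS f) := by
        intro K _ f hf
        have hfin : Finite (imS f) := Finite.of_surjective _ (toIm_surj f)
        have hnon : Nonempty (imS f) := ⟨toIm f (Classical.arbitrary L)⟩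
        exact ih _ (by rw [← hn]; exact card_im_lt f hf) (imS f) rfl
      by_cases h1 : SubdirectlyIrreducible L
      · by_cases h2 : OverIrreducible L
        · exact H L h2
        · unfold OverIrreducible at h2
          push Not at h2
          obtain ⟨K, _, f, hs, hf, hd⟩ := h2 h1
          by_cases ht : TightOver f
          · exact ext_over f hs (hsm K _ f hs hf) ht
          · exact ext_over_dual f hs (hsm K _ f hs hf) (hd ht)
      · apply representable_of_separated
        intro a b hab
        have h3 : ∃ (K : Type) (_ : Lattice K) (f : LatticeHom L K),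
            ¬ Function.Injective f ∧ f a ≠ f b := by
          by_contra hc
          push Not at hc
          exact h1 ⟨a, b, hab, hc⟩
        obtain ⟨K, _, f, hf, hne⟩ := h3
        refine ⟨imS f, inferInstance, toIm f, toIm_surj f, him K _ f hf, ?_⟩
        intro h
        exact hne (congrArg Subtype.val h)
  intro L _ _ _
  exact key _ L rfl

end Vale.Agent.P183.H411
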