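import Vale.Agent.P183.H238.Defs

/-!
Definitions for the extension theorem over tree-like elements and along cuts.
-/

namespace Vale.Agent.P183.H411

open Vale.Agent.P183 Vale.Agent.P183.H330D Vale.Agent.P183.H238
open Vale.Agent.P183.H330M (DistribOver AllBelow)

/-- The lower covers of `t` can be listed as `c 0, …, c (n - 1)` in such a way that every `c j`
with `0 < j` has some `p < j` with `c i ⊓ c j ≤ c p` for all `i < j`. -/
def TreeAt {K : Type} [Lattice K] (t : K) : Prop :=
  ∃ (n : ℕ) (c : ℕ → K), (∀ r, r ⋖ t ↔ ∃ i, i < n ∧ c i = r) ∧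
    ∀ j, j < n → 0 < j → ∃ p, p < j ∧ ∀ i, i < j → c i ⊓ c j ≤ c p

/-- A family below `t`: `u q` is over `q` for every `q < t`, it is in `W` if `q` is in `N`, and an
element over `p ≤ q` is below `u q` if and only if it is below `u p`. -/
def Fam {L K : Type} [Lattice L] [Lattice K] (f : LatticeHom L K) (N : Set K) (W : Set L) (t : K)
    (u : K → L) : Prop :=
  (∀ q, q < t → f (u q) = q ∧ (q ∈ N → u q ∈ W)) ∧
    ∀ p q z, p ≤ q → q < t → f z = p → (z ≤ u q ↔ z ≤ u p)

/-- The family `u` below `t` is cut by the element `d` over `t`: every element `z` over some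
`q < t` is below `u q`, or `d` is below all upper bounds of `z` over `t`. -/
def CutBy {L K : Type} [Lattice L] [Lattice K] (f : LatticeHom L K) (t : K) (u : K → L) (d : L) :
    Prop :=
  f d = t ∧ ∀ q z, q < t → f z = q → z ≤ u q ∨ ∀ w, f w = t → z ≤ w → d ≤ w

/-- The links into the fibre over `t` are tight, by families with values in `W` over `N`. -/
def TightBy {L K : Type} [Lattice L] [Lattice K] (f : LatticeHom L K) (N : Set K) (W : Set L)
    (t : K) : Prop :=
  ∀ r x y, r ⋖ t → f x = r → f y = t → ¬ x ≤ y →
    ∃ u d, Fam f N W t u ∧ CutBy f t u d ∧ ¬ d ≤ y ∧ ¬ x ≤ u r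

/-- The element `l` is interpolated: there is a set `Q` of families below `f l`, each of them cut
by some `d` which is not below `l`; every `x` over some `r < f l` which is not below `l` is not
below `u r` for some `u` in `Q`; and for incomparable `r, r' < f l` every element over `r ⊓ r'` is
below every element over `f l`, or the values at `r` of the members of `Q` form a chain unless `r`
is outside `N`, and the same holds for `r'`. -/
def Interpolated {L K : Type} [Lattice L] [Lattice K] (f : LatticeHom L K) (N : Set K)
    (W : Set L) (l : L) : Prop :=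
  ∃ Q : Set (K → L), (∀ u ∈ Q, Fam f N W (f l) u ∧ ∃ d, CutBy f (f l) u d ∧ ¬ d ≤ l) ∧
    (∀ x, f x < f l → ¬ x ≤ l → ∃ u ∈ Q, ¬ x ≤ u (f x)) ∧
    ∀ r r', r < f l → r' < f l → ¬ r ≤ r' → ¬ r' ≤ r →
      (∀ x y, f x = r ⊓ r' → f y = f l → x ≤ y) ∨
        ((r ∈ N → ∀ u ∈ Q, ∀ u' ∈ Q, u r ≤ u' r ∨ u' r ≤ u r) ∧
          (r' ∈ N → ∀ u ∈ Q, ∀ u' ∈ Q, u r' ≤ u' r' ∨ u' r' ≤ u r'))

/-- The only lower cover of `f l` is `r`, and it is outside `N` or the greatest element over `r`
which is below `l` exists and is in `W`. -/
def FromBelow {L K : Type} [Lattice L] [Lattice K] (f : LatticeHom L K) (N : Set K)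
    (W : Set L) (l : L) : Prop :=
  ∃ r, r ⋖ f l ∧ (∀ r', r' ⋖ f l → r' = r) ∧
    (r ∈ N → ∃ m ∈ W, f m = r ∧ ∀ z, f z = r → (z ≤ l ↔ z ≤ m))

/-- `r` is the only lower cover of `t`, and the link from the fibre over `r` to the fibre over `t`
is transposed. -/
def Linked {L K : Type} [Lattice L] [Lattice K] (f : LatticeHom L K) (r t : K) : Prop :=
  r ⋖ t ∧ (∀ r', r' ⋖ t → r' = r) ∧ TransposedLink f r t

/-- The conditions of the extension theorem: there are an up-set `N` of the quotient and a set `W`
of elements such that (i) outside `N` every fibre is distributive, or it is an interval `[H, G]` in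
the subgroup lattice of a finite group, lies above everything under it, and has narrow traces on
the fibres outside `N`; (ii) over `N` every fibre is an interval `[H, G]`; (iii) for `t` in `N`,
the element `t` is tree-like and the links into the fibre over `t` are compatibly tight, or these
links are tight by families with values in `W`, or `t` is linked to its only lower cover, which is
in `N`; (iv) every element of `W` over `N` is interpolated, by families with values in `W`, or
comes from below. -/
def TightOver {L K : Type} [Lattice L] [Lattice K] (f : LatticeHom L K) : Prop :=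
  ∃ (N : Set K) (W : Set L), IsUpperSet N ∧
    (∀ t, t ∉ N → DistribOver f t ∨
      (IsGroupInterval {l : L // f l = t} ∧ AllBelow f t ∧ NarrowOff f N t)) ∧
    (∀ t, t ∈ N → IsGroupInterval {l : L // f l = t}) ∧
    (∀ t, t ∈ N → (TreeAt t ∧ CompatTight f t) ∨ TightBy f N W t ∨ ∃ r, r ∈ N ∧ Linked f r t) ∧
    ∀ l, l ∈ W → f l ∈ N → Interpolated f N W l ∨ FromBelow f N W l

end Vale.Agent.P183.H411
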