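import Vale.Agent.P183.H411.Main
import Vale.Agent.P183.H238.Reduce2

/-!
The extension theorem over tree-like elements and along cuts; consequences.
-/

set_option linter.all false

namespace Vale.Agent.P183.H411

open Vale.Agent.P183 Vale.Agent.P183.H330 Vale.Agent.P183.H330G Vale.Agent.P183.H330D
open Vale.Agent.P183.H238
open Vale.Agent.P183.H330M (DistribOver AllBelow)

variable {L K : Type} [Lattice L] [Lattice K]

/-- **The extension theorem.** -/
theorem ext_over [Finite L] (f : LatticeHom L K) (hf : Function.Surjective f)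
    (hK : Representable K) (h : TightOver f) : Representable L := by
  classical
  have hKf : Finite K := Finite.of_surjective f hf
  have hKn : Nonempty K := hK.nonempty
  obtain ⟨b0, hb0⟩ := exists_least (K := K)
  obtain ⟨lo, hi, hflo, hfhi, hlo, hhi⟩ := exists_lo_hi_fin f hf
  have hlo' : ∀ k l, k ≤ f l → lo k ≤ l := by
    intro k l h
    have h1 : f (lo k ⊓ l) = k := by rw [map_inf, hflo, inf_eq_left.2 h]
    have h3 := hlo (lo k ⊓ l)
    rw [h1] at h3
    exact h3.trans inf_le_right
  have hlo2 : ∀ t l, f l = t → lo t ≤ l := fun t l hl => by rw [← hl]; exact hlo l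
  have hhi2 : ∀ t l, f l = t → l ≤ hi t := fun t l hl => by rw [← hl]; exact hhi l
  obtain ⟨N, W, hN, h1, h2, h3, h4⟩ := h
  have hcov : ∀ s t : K, s < t → ∃ r, r ⋖ t ∧ s ≤ r := by
    intro s t hst
    obtain ⟨r, hr, hmax⟩ := (Set.toFinite {r : K | s ≤ r ∧ r < t}).exists_maximal ⟨s, le_rfl, hst⟩
    refine ⟨r, ⟨hr.2, fun c hrc hct => ?_⟩, hr.1⟩
    exact absurd (hmax ⟨hr.1.trans hrc.le, hct⟩ hrc.le) (not_le_of_gt hrc)
  refine ext_over_aux (lo := lo) (hi := hi) hf b0 hb0 hflo hfhi hlo hhi N
    (fun r t hrt hr => hN hrt hr) ?_ ?_ ?_ ?_ W ?_ h4 hK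
  · intro t ht hd
    rcases h1 t ht with h | h
    · exact absurd h hd
    · exact h.1
  · intro t ht hd
    rcases h1 t ht with h | h
    · exact absurd h hd
    · exact h.2.1
  · intro r hr hd t ht hrt x y z hx hy hz k1 k2 k3 k4
    rcases h1 r hr with h | h
    · exact absurd h hd
    · refine h.2.2 (hi r) (hfhi r) (hhi2 r) x y z (by rw [hx]; exact ht) (by rw [hx]; exact hrt)
        (hx.trans hy.symm) (hx.trans hz.symm) ?_ ?_ ?_ ?_
      · exact fun h => k1 (h.trans inf_le_left)
      · exact fun h => k2 (h.trans inf_le_left)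
      · exact fun h => k3 (h.trans inf_le_left)
      · exact fun h => k4 (h.trans inf_le_left)
  · exact fun t ht => exists_dl (h2 t ht)
  · intro t ht
    rcases h3 t ht with h | h | ⟨r, hrN, hrt, hun, hTr⟩
    · exact Or.inl (Or.inl h)
    · exact Or.inl (Or.inr h)
    · refine Or.inr ⟨r, hrt.lt, fun q hq => ?_, hrN, hTr⟩
      obtain ⟨c, hc, hqc⟩ := hcov q t hq
      rw [← hun c hc]
      exact hqc

/-- The dual of the extension theorem. -/
theorem ext_over_dual [Finite L] (f : LatticeHom L K) (hf : Function.Surjective f)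
    (hK : Representable K) (h : TightOver (LatticeHom.dual f)) : Representable L := by
  have hLf : Finite Lᵒᵈ := inferInstanceAs (Finite L)
  have h1 : Representable Lᵒᵈ := ext_over (LatticeHom.dual f) (by
    intro k
    obtain ⟨l, hl⟩ := hf (OrderDual.ofDual k)
    exact ⟨OrderDual.toDual l, congrArg OrderDual.toDual hl⟩) hK.dual h
  exact h1.dual

/-- Distributive fibres are intervals `[H, G]` and compatibly tight. -/
theorem distrib_fibre [Finite L] {f : LatticeHom L K} (hf : Function.Surjective f) {t : K}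
    (h : DistribOver f t) : IsGroupInterval {l : L // f l = t} ∧ CompatTight f t := by
  have hKf : Finite K := Finite.of_surjective f hf
  obtain ⟨lo, hi, hflo, hfhi, hlo, hhi⟩ := exists_lo_hi_fin f hf
  have hlo' : ∀ k l, k ≤ f l → lo k ≤ l := by
    intro k l h
    have h1 : f (lo k ⊓ l) = k := by rw [map_inf, hflo, inf_eq_left.2 h]
    have h3 := hlo (lo k ⊓ l)
    rw [h1] at h3
    exact h3.trans inf_le_right
  have hlo2 : ∀ l, f l = t → lo t ≤ l := fun l hl => by rw [← hl]; exact hlo l
  have hhi2 : ∀ l, f l = t → l ≤ hi t := fun l hl => by rw [← hl]; exact hhi l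
  exact ⟨groupInterval_of_distrib (hflo t) (hfhi t) hlo2 hhi2 h, compat_of_distrib hflo hlo' h⟩

/-- **Fibres over a tree-like lattice.** -/
theorem over_of_tree [Finite L] {f : LatticeHom L K} (hf : Function.Surjective f)
    (hT : ∀ t : K, TreeAt t)
    (h : ∀ t, DistribOver f t ∨ (IsGroupInterval {l : L // f l = t} ∧
      (CompatTight f t ∨ ∃ r, Linked f r t))) :
    TightOver f := by
  refine ⟨Set.univ, ∅, fun _ _ _ _ => Set.mem_univ _, fun t ht => absurd (Set.mem_univ t) ht,
    fun t _ => ?_, fun t _ => ?_, fun l hl => absurd hl (Set.notMem_empty l)⟩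
  · rcases h t with h | h
    · exact (distrib_fibre hf h).1
    · exact h.1
  · rcases h t with h | ⟨_, h | ⟨r, h⟩⟩
    · exact Or.inl ⟨hT t, (distrib_fibre hf h).2⟩
    · exact Or.inl ⟨hT t, h⟩
    · exact Or.inr (Or.inr ⟨r, Set.mem_univ r, h⟩)

/-- **Gluing along cuts** over an arbitrary lattice. -/
theorem over_of_cuts {f : LatticeHom L K} {I : Type} (u d : I → K → L)
    (h1 : ∀ t, IsGroupInterval {l : L // f l = t})
    (hu : ∀ i q, f (u i q) = q) (hd : ∀ i q, f (d i q) = q) (hdu : ∀ i q, ¬ d i q ≤ u i q)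
    (hc : ∀ i p q z, p ≤ q → f z = p → (z ≤ u i q ↔ z ≤ u i p))
    (hle : ∀ x y, f x < f y → (x ≤ y ↔ ∀ i, x ≤ u i (f x) ∨ d i (f y) ≤ y)) :
    TightOver f := by
  have hfam : ∀ i t, Fam f Set.univ {l | ∃ i q, l = u i q} t (u i) := fun i t =>
    ⟨fun q _ => ⟨hu i q, fun _ => ⟨i, q, rfl⟩⟩, fun p q z hpq _ hz => hc i p q z hpq hz⟩
  have hcut : ∀ i t, CutBy f t (u i) (d i t) := by
    intro i t
    refine ⟨hd i t, fun q z hq hz => ?_⟩
    by_cases h : z ≤ u i q
    · exact Or.inl h
    · right
      intro w hw hzw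
      have := (hle z w (by rw [hz, hw]; exact hq)).1 hzw i
      rw [hz, hw] at this
      rcases this with h' | h'
      · exact absurd h' h
      · exact h'
  refine ⟨Set.univ, {l | ∃ i q, l = u i q}, fun _ _ _ _ => Set.mem_univ _,
    fun t ht => absurd (Set.mem_univ t) ht, fun t _ => h1 t, fun t _ => Or.inr (Or.inl ?_), ?_⟩
  · intro r x y hr hx hy hxy
    have h2 := (hle x y (by rw [hx, hy]; exact hr.lt)).not.1 hxy
    push Not at h2
    obtain ⟨i, h3, h4⟩ := h2
    rw [hx] at h3
    rw [hy] at h4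
    exact ⟨u i, d i t, hfam i t, hcut i t, h4, h3⟩
  · rintro l ⟨i, q, rfl⟩ _
    left
    rw [Interpolated, hu i q]
    refine ⟨{u i}, ?_, ?_, ?_⟩
    · intro v hv
      rw [Set.mem_singleton_iff] at hv
      subst hv
      exact ⟨hfam i q, d i q, hcut i q, hdu i q⟩
    · intro x hx hxl
      refine ⟨u i, rfl, fun h => hxl ((hc i (f x) q x hx.le rfl).2 h)⟩
    · intro r r' _ _ _ _
      right
      constructor
      · intro _ v hv v' hv'
        rw [Set.mem_singleton_iff] at hv hv'
        subst hv hv'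
        exact Or.inl le_rfl
      · intro _ v hv v' hv'
        rw [Set.mem_singleton_iff] at hv hv'
        subst hv hv'
        exact Or.inl le_rfl

end Vale.Agent.P183.H411
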