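import Vale.Agent.P183.H411.Defs
import Vale.Agent.P183.H238.Gluing

/-!
Compatible families of saturated sets in a system of spaces, and their extensions, when
interpolants are available at some elements only.
-/

set_option linter.all false

namespace Vale.Agent.P183.H411

open Vale.Agent.P183 Vale.Agent.P183.H330 Vale.Agent.P183.H330G Vale.Agent.P183.H238

variable {L K : Type} [Lattice L] [Lattice K] {f : LatticeHom L K} {lo hi : K → L}

/-- The maps into the space over `t` are compatible and isometric. -/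
structure Good0 (S : ∀ t, Sp f lo t) (t : K) (J : ∀ t r, (S r).X → (S t).X) : Prop where
  refl : ∀ a, J t t a = a
  comp : ∀ q r, q ≤ r → r ≤ t → ∀ a, J t r (J r q a) = J t q a
  isom : ∀ r, r ≤ t → ∀ a a', (S t).d (J t r a) (J t r a') = (S r).d a a' ⊔ lo t

/-- Interpolants at `l` in the space over `t`. -/
def Itp (S : ∀ t, Sp f lo t) (J : ∀ t r, (S r).X → (S t).X) (t : K) (l : L) : Prop :=
  ∀ r r', r ≤ t → r' ≤ t → ∀ (a : (S r).X) (a' : (S r').X),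
    (S t).d (J t r a) (J t r' a') ≤ l →
    ∃ e : (S (r ⊓ r')).X, (S t).d (J t r a) (J t (r ⊓ r') e) ≤ l ∧
      (S t).d (J t (r ⊓ r') e) (J t r' a') ≤ l

/-- The conditions on the maps into the space over `t`; gates are required outside `N`, and
interpolants outside `N` and at the elements of `W`. -/
structure GoodW (N : Set K) (W : Set L) (S : ∀ t, Sp f lo t)
    (B : ∀ t, Subgroup (Equiv.Perm (S t).X)) (t : K) (J : ∀ t r, (S r).X → (S t).X) : Prop where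
  g0 : Good0 S t J
  interp : ∀ l, f l = t → (t ∈ N → l ∈ W) → Itp S J t l
  gate : t ∉ N → ∀ r r', r ≤ t → r' ≤ t → ∀ (x : (S t).X) (a : (S r).X) (a' : (S r').X) l l',
    f l = t → f l' = t → (S t).d x (J t r a) ≤ l → (S t).d x (J t r' a') ≤ l' →
    (∃ c : (S r).X, (S t).d x (J t r c) ≤ l ⊓ l') ∨
      ∃ c : (S r').X, (S t).d x (J t r' c) ≤ l ⊓ l'
  ext : ∀ s g, CompatB S B J s t g → ∃ γ ∈ B t, ∀ r, s ≤ r → r < t → ∀ a,
    γ (J t r a) = J t r (g r a)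

theorem Good0.local {S : ∀ t, Sp f lo t} {t : K} {J J' : ∀ t r, (S r).X → (S t).X}
    (h : ∀ r, r ≤ t → J r = J' r) (hg : Good0 S t J) : Good0 S t J' := by
  constructor
  · intro a
    rw [← h t le_rfl]; exact hg.refl a
  · intro q r hqr hrt a
    rw [← h t le_rfl, ← h r hrt]; exact hg.comp q r hqr hrt a
  · intro r hrt a a'
    rw [← h t le_rfl]; exact hg.isom r hrt a a'

theorem GoodW.local {N : Set K} {W : Set L} {S : ∀ t, Sp f lo t}
    {B : ∀ t, Subgroup (Equiv.Perm (S t).X)}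
    {t : K} {J J' : ∀ t r, (S r).X → (S t).X} (h : ∀ r, r ≤ t → J r = J' r)
    (hg : GoodW N W S B t J) : GoodW N W S B t J' := by
  constructor
  · exact hg.g0.local h
  · intro l hl hW r r' hr hr' a a'
    rw [← h t le_rfl]; exact hg.interp l hl hW r r' hr hr' a a'
  · rw [← h t le_rfl]; exact hg.gate
  · intro s g hc
    rw [← h t le_rfl]
    refine hg.ext s g ?_
    intro r hr1 hr2
    refine ⟨(hc r hr1 hr2).1, fun q hq1 hq2 a => ?_⟩
    rw [h r hr2.le]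
    exact (hc r hr1 hr2).2 q hq1 hq2 a

theorem GoodW.to3 {N : Set K} {W : Set L} {S : ∀ t, Sp f lo t}
    {B : ∀ t, Subgroup (Equiv.Perm (S t).X)}
    {t : K} {J : ∀ t r, (S r).X → (S t).X} (h : GoodW N W S B t J) (ht : t ∉ N) :
    Good3 S B t J :=
  ⟨h.g0.refl, h.g0.comp, h.g0.isom,
    fun r r' hr hr' a a' l hl => h.interp l hl (fun h => absurd h ht) r r' hr hr' a a',
    h.gate ht, h.ext⟩

theorem GoodW.of3 {N : Set K} {W : Set L} {S : ∀ t, Sp f lo t}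
    {B : ∀ t, Subgroup (Equiv.Perm (S t).X)}
    {t : K} {J : ∀ t r, (S r).X → (S t).X} (h : Good3 S B t J) : GoodW N W S B t J :=
  ⟨⟨h.refl, h.comp, h.isom⟩, fun l hl _ r r' hr hr' a a' => h.interp r r' hr hr' a a' l hl,
    fun _ => h.gate, h.ext⟩

section

variable {S : ∀ t, Sp f lo t} {J : ∀ t r, (S r).X → (S t).X} {t : K} {u : K → L} {s : K}

/-- `V` is saturated and compatible. -/
def SatF (J : ∀ t r, (S r).X → (S t).X) (t : K) (u : K → L)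
    (V : ∀ r : {r : K // r < t}, Set (S r.1).X) : Prop :=
  (∀ q (hq : q < t) (a b : (S q).X), (S q).d a b ≤ u q → (a ∈ V ⟨q, hq⟩ ↔ b ∈ V ⟨q, hq⟩)) ∧
    ∀ p q (hpq : p ≤ q) (hq : q < t) (a : (S p).X),
      (J q p a ∈ V ⟨q, hq⟩ ↔ a ∈ V ⟨p, hpq.trans_lt hq⟩)

/-- Every family which is saturated and compatible above some `s` extends. -/
def GlueOK (J : ∀ t r, (S r).X → (S t).X) (t : K) (u : K → L) : Prop :=
  ∀ s (V : ∀ r : {r : K // r < t}, Set (S r.1).X), SatC J t u s V →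
    ∃ V' : ∀ r : {r : K // r < t}, Set (S r.1).X, SatF J t u V' ∧
      ∀ q (hq : q < t), s ≤ q → V' ⟨q, hq⟩ = V ⟨q, hq⟩

variable (hlo : ∀ k l, k ≤ f l → lo k ≤ l) (hJ : ∀ r, r < t → Good0 S r J) (hu : CF f t u)

include hJ hu in
/-- Going down. -/
theorem down {p q : K} (hpq : p ≤ q) (hq : q < t) {a b : (S p).X}
    (h : (S q).d (J q p a) (J q p b) ≤ u q) : (S p).d a b ≤ u p := by
  rw [(hJ q hq).isom p hpq] at h
  exact (hu.2 p q _ hpq hq ((S p).fd a b)).1 (le_sup_left.trans h)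

include hlo hJ hu in
/-- Going up. -/
theorem up {p q : K} (hpq : p ≤ q) (hq : q < t) {a b : (S p).X}
    (h : (S p).d a b ≤ u p) : (S q).d (J q p a) (J q p b) ≤ u q := by
  rw [(hJ q hq).isom p hpq]
  exact sup_le ((hu.2 p q _ hpq hq ((S p).fd a b)).2 h) (hlo _ _ (hu.1 q hq).ge)

include hlo hJ hu in
theorem up_iff {p q : K} (hpq : p ≤ q) (hq : q < t) {a b : (S p).X} :
    (S q).d (J q p a) (J q p b) ≤ u q ↔ (S p).d a b ≤ u p :=
  ⟨down hJ hu hpq hq, up hlo hJ hu hpq hq⟩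

theorem sat_ex (V : ∀ r : {r : K // r < t}, Set (S r.1).X) (q : K) (hq : q < t) (a b : (S q).X)
    (h : (S q).d a b ≤ u q) : a ∈ exV J t u s V ⟨q, hq⟩ ↔ b ∈ exV J t u s V ⟨q, hq⟩ := by
  constructor
  · rintro ⟨r, hr, e, h1, h2, h3⟩
    refine ⟨r, hr, e, h1, ?_, h3⟩
    exact ((S q).tri b a _).trans (sup_le (by rw [(S q).symm]; exact h) h2)
  · rintro ⟨r, hr, e, h1, h2, h3⟩
    refine ⟨r, hr, e, h1, ?_, h3⟩
    exact ((S q).tri a b _).trans (sup_le h h2)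

variable (hI : ∀ q, q < t → Itp S J q (u q))

include hlo hJ hu hI in
theorem compat_ex {V : ∀ r : {r : K // r < t}, Set (S r.1).X} (hV : SatC J t u s V)
    (p q : K) (hpq : p ≤ q) (hq : q < t) (a : (S p).X) :
    J q p a ∈ exV J t u s V ⟨q, hq⟩ ↔ a ∈ exV J t u s V ⟨p, hpq.trans_lt hq⟩ := by
  have hp : p < t := hpq.trans_lt hq
  constructor
  · rintro ⟨r, hr, e, h1, h2, h3⟩
    have hqr : q ⊓ r < t := inf_le_left.trans_lt hq
    obtain ⟨g, hg1, hg2⟩ := hI q hq p (q ⊓ r) hpq inf_le_left a e h2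
    have k1 : p ⊓ (q ⊓ r) ≤ p := inf_le_left
    have k2 : p ⊓ (q ⊓ r) ≤ q ⊓ r := inf_le_right
    have k3 : p ⊓ (q ⊓ r) ≤ p ⊓ r := le_inf inf_le_left (inf_le_right.trans inf_le_right)
    refine ⟨r, hr, J (p ⊓ r) (p ⊓ (q ⊓ r)) g, h1, ?_, ?_⟩
    · show (S p).d a (J p (p ⊓ r) (J (p ⊓ r) (p ⊓ (q ⊓ r)) g)) ≤ u p
      rw [(hJ p hp).comp _ _ k3 inf_le_left]
      refine down hJ hu hpq hq ?_
      rw [(hJ q hq).comp _ _ k1 hpq]
      exact hg1
    · show J r (p ⊓ r) (J (p ⊓ r) (p ⊓ (q ⊓ r)) g) ∈ V ⟨r, hr⟩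
      rw [(hJ r hr).comp _ _ k3 inf_le_right]
      have h4 : (S (q ⊓ r)).d (J (q ⊓ r) (p ⊓ (q ⊓ r)) g) e ≤ u (q ⊓ r) := by
        refine down hJ hu inf_le_left hq ?_
        rw [(hJ q hq).comp _ _ k2 inf_le_left]
        exact hg2
      have h5 := up hlo hJ hu (inf_le_right : q ⊓ r ≤ r) hr h4
      rw [(hJ r hr).comp _ _ k2 inf_le_right] at h5
      exact (hV.1 r hr h1 _ _ h5).2 h3
  · rintro ⟨r, hr, e, h1, h2, h3⟩
    have k : p ⊓ r ≤ q ⊓ r := inf_le_inf_right _ hpq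
    refine ⟨r, hr, J (q ⊓ r) (p ⊓ r) e, h1, ?_, ?_⟩
    · show (S q).d (J q p a) (J q (q ⊓ r) (J (q ⊓ r) (p ⊓ r) e)) ≤ u q
      rw [(hJ q hq).comp _ _ k inf_le_left, ← (hJ q hq).comp _ _ inf_le_left hpq]
      exact up hlo hJ hu hpq hq h2
    · show J r (q ⊓ r) (J (q ⊓ r) (p ⊓ r) e) ∈ V ⟨r, hr⟩
      rw [(hJ r hr).comp _ _ k inf_le_right]
      exact h3

include hlo hJ hu in
theorem eq_ex {V : ∀ r : {r : K // r < t}, Set (S r.1).X} (hV : SatC J t u s V)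
    (q : K) (hq : q < t) (hsq : s ≤ q) : exV J t u s V ⟨q, hq⟩ = V ⟨q, hq⟩ := by
  ext a
  constructor
  · rintro ⟨r, hr, e, h1, h2, h3⟩
    have h4 := (hV.2 (q ⊓ r) r inf_le_right hr (le_inf hsq h1) e).1 h3
    have h5 := (hV.2 (q ⊓ r) q inf_le_left hq (le_inf hsq h1) e).2 h4
    exact (hV.1 q hq hsq _ _ h2).2 h5
  · intro ha
    refine ⟨q, hq, J (q ⊓ q) q a, hsq, ?_, ?_⟩
    · show (S q).d a (J q (q ⊓ q) (J (q ⊓ q) q a)) ≤ u q
      rw [(hJ q hq).comp _ _ (le_inf le_rfl le_rfl) inf_le_left, (hJ q hq).refl,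
        ((S q).self _ _).2 rfl]
      exact hlo _ _ (hu.1 q hq).ge
    · show J q (q ⊓ q) (J (q ⊓ q) q a) ∈ V ⟨q, hq⟩
      rw [(hJ q hq).comp _ _ (le_inf le_rfl le_rfl) inf_le_left, (hJ q hq).refl]
      exact ha

include hlo hJ hu hI in
/-- Gluing by interpolation. -/
theorem glue_of_itp : GlueOK J t u := fun s V hV =>
  ⟨exV J t u s V, ⟨fun q hq a b h => sat_ex V q hq a b h,
    fun p q hpq hq a => compat_ex hlo hJ hu hI hV p q hpq hq a⟩,
    fun q hq hsq => eq_ex hlo hJ hu hV q hq hsq⟩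

/-- The points near `a` above `r`. -/
def nearV (J : ∀ t r, (S r).X → (S t).X) (t : K) (u : K → L) {r : K} (a : (S r).X)
    (q : {r : K // r < t}) : Set (S q.1).X :=
  {b | r ≤ q.1 ∧ (S q.1).d b (J q.1 r a) ≤ u q.1}

include hlo hJ hu in
theorem nearV_sat {r : K} (a : (S r).X) : SatC J t u r (nearV J t u a) := by
  constructor
  · intro q hq hrq b c hbc
    constructor
    · rintro ⟨h1, h2⟩
      exact ⟨h1, ((S q).tri c b _).trans (sup_le (by rw [(S q).symm]; exact hbc) h2)⟩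
    · rintro ⟨h1, h2⟩
      exact ⟨h1, ((S q).tri b c _).trans (sup_le hbc h2)⟩
  · intro p q hpq hq hrp b
    constructor
    · rintro ⟨h1, h2⟩
      refine ⟨hrp, down hJ hu hpq hq ?_⟩
      rw [(hJ q hq).comp _ _ hrp hpq]
      exact h2
    · rintro ⟨h1, h2⟩
      refine ⟨hrp.trans hpq, ?_⟩
      show (S q).d (J q p b) (J q r a) ≤ u q
      rw [← (hJ q hq).comp _ _ hrp hpq]
      exact up hlo hJ hu hpq hq h2

include hlo hJ hu in
/-- A saturated family around a point, by gluing. -/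
theorem ball_glue (hG : GlueOK J t u) {r : K} (hr : r < t) (a : (S r).X) :
    ∃ U : ∀ r : {r : K // r < t}, Set (S r.1).X, SatF J t u U ∧
      ∀ b : (S r).X, b ∈ U ⟨r, hr⟩ ↔ (S r).d b a ≤ u r := by
  obtain ⟨U, hU1, hU2⟩ := hG r _ (nearV_sat hlo hJ hu a)
  refine ⟨U, hU1, fun b => ?_⟩
  rw [hU2 r hr le_rfl]
  show (r ≤ r ∧ (S r).d b (J r r a) ≤ u r) ↔ _
  rw [(hJ r hr).refl]
  exact ⟨fun h => h.2, fun h => ⟨le_rfl, h⟩⟩

include hlo hJ hu hI in
/-- The family of the points near `a`, by interpolation. -/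
theorem ball_itp {r : K} (hr : r < t) (a : (S r).X) :
    ∃ U : ∀ r : {r : K // r < t}, Set (S r.1).X, SatF J t u U ∧
      ∀ q (hq : q < t) (b : (S q).X), b ∈ U ⟨q, hq⟩ ↔ ∃ e : (S (r ⊓ q)).X,
        (S r).d a (J r (r ⊓ q) e) ≤ u r ∧ (S q).d (J q (r ⊓ q) e) b ≤ u q := by
  have hV : SatC J t u r (nearV J t u a) := nearV_sat hlo hJ hu a
  refine ⟨exV J t u r (nearV J t u a), ⟨fun q hq a b h => sat_ex _ q hq a b h,
    fun p q hpq hq a => compat_ex hlo hJ hu hI hV p q hpq hq a⟩, ?_⟩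
  intro q hq b
  constructor
  · rintro ⟨ρ, hρ, e, hrρ, h2, -, h3⟩
    obtain ⟨g, hg1, hg2⟩ := hI ρ hρ (q ⊓ ρ) r inf_le_right hrρ e a h3
    have k1 : (q ⊓ ρ) ⊓ r ≤ r := inf_le_right
    have k2 : (q ⊓ ρ) ⊓ r ≤ q ⊓ ρ := inf_le_left
    have k3 : (q ⊓ ρ) ⊓ r ≤ r ⊓ q := le_inf inf_le_right (inf_le_left.trans inf_le_left)
    refine ⟨J (r ⊓ q) ((q ⊓ ρ) ⊓ r) g, ?_, ?_⟩
    · rw [(hJ r hr).comp _ _ k3 inf_le_left]
      refine down hJ hu hrρ hρ ?_
      rw [(hJ ρ hρ).comp _ _ k1 hrρ, (S ρ).symm]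
      exact hg2
    · rw [(hJ q hq).comp _ _ k3 inf_le_right]
      have h4 : (S (q ⊓ ρ)).d e (J (q ⊓ ρ) ((q ⊓ ρ) ⊓ r) g) ≤ u (q ⊓ ρ) := by
        refine down hJ hu inf_le_right hρ ?_
        rw [(hJ ρ hρ).comp _ _ k2 inf_le_right]
        exact hg1
      have h5 := up hlo hJ hu (inf_le_left : q ⊓ ρ ≤ q) hq h4
      rw [(hJ q hq).comp _ _ k2 inf_le_left] at h5
      refine ((S q).tri _ (J q (q ⊓ ρ) e) _).trans (sup_le (by rw [(S q).symm]; exact h5) ?_)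
      rw [(S q).symm]
      exact h2
  · rintro ⟨e, h1, h2⟩
    have hmem : J r (q ⊓ r) (J (q ⊓ r) (r ⊓ q) e) ∈ nearV J t u a ⟨r, hr⟩ := by
      refine ⟨le_rfl, ?_⟩
      show (S r).d (J r (q ⊓ r) (J (q ⊓ r) (r ⊓ q) e)) (J r r a) ≤ u r
      rw [(hJ r hr).comp _ _ (le_inf inf_le_right inf_le_left) inf_le_right, (hJ r hr).refl,
        (S r).symm]
      exact h1
    refine ⟨r, hr, J (q ⊓ r) (r ⊓ q) e, le_rfl, ?_, hmem⟩
    show (S q).d b (J q (q ⊓ r) (J (q ⊓ r) (r ⊓ q) e)) ≤ u q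
    rw [(hJ q hq).comp _ _ (le_inf inf_le_right inf_le_left) inf_le_left, (S q).symm]
    exact h2

end

end Vale.Agent.P183.H411
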