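import Vale.Agent.P183.H411.Blocks

/-!
Interpolation at the elements of `W`.
-/

set_option linter.all false

namespace Vale.Agent.P183.H411

open Vale.Agent.P183 Vale.Agent.P183.H330 Vale.Agent.P183.H330G Vale.Agent.P183.H238

variable {L K : Type} [Lattice L] [Lattice K] {f : LatticeHom L K} {lo hi : K → L}

theorem Fam.cf {N : Set K} {W : Set L} {t : K} {u : K → L} (h : Fam f N W t u) : CF f t u :=
  ⟨fun q hq => (h.1 q hq).1, h.2⟩

/-- Interpolation is only needed for incomparable elements below `t`. -/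
theorem itp_triv {S : ∀ t, Sp f lo t} {J : ∀ t r, (S r).X → (S t).X} {t : K}
    (hlo : ∀ k l, k ≤ f l → lo k ≤ l) (h0 : Good0 S t J) {l : L} (hl : f l = t)
    (H : ∀ r r', r < t → r' < t → ¬ r ≤ r' → ¬ r' ≤ r → ∀ (a : (S r).X) (a' : (S r').X),
      (S t).d (J t r a) (J t r' a') ≤ l → ∃ e : (S (r ⊓ r')).X,
        (S r).d a (J r (r ⊓ r') e) ≤ l ∧ (S r').d (J r' (r ⊓ r') e) a' ≤ l) : Itp S J t l := by
  intro r r' hr hr' a a' h
  have hcomp := h0.comp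
  rcases eq_or_lt_of_le hr with hreq | hrlt
  · subst hreq
    have hle : r' ≤ r ⊓ r' := le_inf hr' le_rfl
    refine ⟨J (r ⊓ r') r' a', ?_, ?_⟩
    · rw [hcomp _ _ hle inf_le_left]; exact h
    · rw [hcomp _ _ hle inf_le_left, ((S _).self _ _).2 rfl]
      exact hlo _ _ hl.ge
  rcases eq_or_lt_of_le hr' with hreq | hrlt'
  · subst hreq
    have hle : r ≤ r ⊓ r' := le_inf le_rfl hr
    refine ⟨J (r ⊓ r') r a, ?_, ?_⟩
    · rw [hcomp _ _ hle inf_le_right, ((S _).self _ _).2 rfl]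
      exact hlo _ _ hl.ge
    · rw [hcomp _ _ hle inf_le_right]; exact h
  by_cases hc1 : r ≤ r'
  · have hle : r ≤ r ⊓ r' := le_inf le_rfl hc1
    refine ⟨J (r ⊓ r') r a, ?_, ?_⟩
    · rw [hcomp _ _ hle (inf_le_left.trans hr), ((S _).self _ _).2 rfl]
      exact hlo _ _ hl.ge
    · rw [hcomp _ _ hle (inf_le_left.trans hr)]; exact h
  by_cases hc2 : r' ≤ r
  · have hle : r' ≤ r ⊓ r' := le_inf hc2 le_rfl
    refine ⟨J (r ⊓ r') r' a', ?_, ?_⟩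
    · rw [hcomp _ _ hle (inf_le_left.trans hr)]; exact h
    · rw [hcomp _ _ hle (inf_le_left.trans hr), ((S _).self _ _).2 rfl]
      exact hlo _ _ hl.ge
  obtain ⟨e, h1, h2⟩ := H r r' hrlt hrlt' hc1 hc2 a a' h
  have hlt : lo t ≤ l := hlo _ _ hl.ge
  refine ⟨e, ?_, ?_⟩
  · rw [← hcomp _ _ inf_le_left hr, h0.isom r hr]
    exact sup_le h1 hlt
  · rw [← hcomp _ _ inf_le_right hr', h0.isom r' hr']
    exact sup_le h2 hlt

/-- A nearest point in a lower space. -/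
theorem exists_near [Finite L] {N : Set K} {W : Set L} {S : ∀ t, Sp f lo t}
    {B : ∀ t, Subgroup (Equiv.Perm (S t).X)} {J : ∀ t r, (S r).X → (S t).X} {r : K}
    (hJ : GoodW N W S B r J) (hr : r ∉ N) {p : K} (hpr : p ≤ r) (a : (S r).X) :
    ∃ (m : L) (e : (S p).X), f m = r ∧ (S r).d a (J r p e) ≤ m ∧
      ∀ (e' : (S p).X) l', f l' = r → (S r).d a (J r p e') ≤ l' → m ≤ l' := by
  obtain ⟨e0⟩ := (S p).ne
  obtain ⟨m, ⟨hm1, e, hm2⟩, hmin⟩ := (Set.toFinite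
    {l : L | f l = r ∧ ∃ e : (S p).X, (S r).d a (J r p e) ≤ l}).exists_minimal
    ⟨(S r).d a (J r p e0), (S r).fd _ _, e0, le_rfl⟩
  refine ⟨m, e, hm1, hm2, fun e' l' hl' h => ?_⟩
  have h1 : m ⊓ l' ∈ {l : L | f l = r ∧ ∃ e : (S p).X, (S r).d a (J r p e) ≤ l} := by
    refine ⟨by rw [map_inf, hm1, hl', inf_idem], ?_⟩
    rcases hJ.gate hr p p hpr hpr a e e' m l' hm1 hl' hm2 h with h2 | h2
    · exact h2
    · exact h2
  exact (hmin h1 inf_le_left).trans inf_le_right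

/-- A nearest point in a lower space, with respect to a set of families. -/
theorem exists_nearQ [Finite L] {N : Set K} {W : Set L} {S : ∀ t, Sp f lo t}
    {B : ∀ t, Subgroup (Equiv.Perm (S t).X)} {J : ∀ t r, (S r).X → (S t).X} {r : K}
    {Q : Set (K → L)} (hJ : GoodW N W S B r J) (hQ : ∀ u ∈ Q, f (u r) = r)
    (hr : r ∈ N → ∀ u ∈ Q, ∀ u' ∈ Q, u r ≤ u' r ∨ u' r ≤ u r)
    {p : K} (hpr : p ≤ r) (a : (S r).X) :
    ∃ e : (S p).X, ∀ u ∈ Q, (∃ e' : (S p).X, (S r).d a (J r p e') ≤ u r) →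
      (S r).d a (J r p e) ≤ u r := by
  by_cases hrN : r ∈ N
  swap
  · obtain ⟨m, e, hm, hme, hmin⟩ := exists_near hJ hrN hpr a
    exact ⟨e, fun u hu ⟨e', he'⟩ => hme.trans (hmin e' _ (hQ u hu) he')⟩
  · by_cases hne : {w : L | ∃ u ∈ Q, u r = w ∧ ∃ e' : (S p).X, (S r).d a (J r p e') ≤ w}.Nonempty
    · obtain ⟨w, ⟨u0, hu0, hw, e, he⟩, hmin⟩ := (Set.toFinite
        {w : L | ∃ u ∈ Q, u r = w ∧ ∃ e' : (S p).X, (S r).d a (J r p e') ≤ w}).exists_minimal hne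
      refine ⟨e, fun u hu he' => he.trans ?_⟩
      rcases hr hrN u0 hu0 u hu with h | h
      · rw [← hw]; exact h
      · exact hmin ⟨u, hu, rfl, he'⟩ (by rw [← hw]; exact h)
    · obtain ⟨e⟩ := (S p).ne
      exact ⟨e, fun u hu he' => absurd ⟨u r, u, hu, rfl, he'⟩ hne⟩

/-- Interpolation by families. -/
theorem itp_of_interpolated [Finite L] {N : Set K} {W : Set L} {S : ∀ t, Sp f lo t}
    {B : ∀ t, Subgroup (Equiv.Perm (S t).X)} {J J' : ∀ t r, (S r).X → (S t).X}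
    (hlo : ∀ k l, k ≤ f l → lo k ≤ l)
    (hflo : ∀ k, f (lo k) = k) (hfhi : ∀ k, f (hi k) = k) (hhi : ∀ l, l ≤ hi (f l)) {t : K}
    (hJ : ∀ r, r < t → GoodW N W S B r J) (h0 : Good0 S t J') (hJr : ∀ r, r ≠ t → J' r = J r)
    (hsep : ∀ (u : K → L) (d l : L), Fam f N W t u → CutBy f t u d → f l = t → ¬ d ≤ l →
      ∀ r r', r < t → r' < t → ∀ (a : (S r).X) (a' : (S r').X),
        (S t).d (J' t r a) (J' t r' a') ≤ l → ∃ e : (S (r ⊓ r')).X,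
          (S r).d a (J r (r ⊓ r') e) ≤ u r ∧ (S r').d (J r' (r ⊓ r') e) a' ≤ u r')
    {l : L} (hl : f l = t) (hI : Interpolated f N W l) : Itp S J' t l := by
  classical
  have hJ0 : ∀ r, r < t → Good0 S r J := fun r hr => (hJ r hr).g0
  obtain ⟨Q, hQ1, hQ2, hQ3⟩ := hI
  rw [hl] at hQ1 hQ2 hQ3
  refine itp_triv hlo h0 hl ?_
  intro r r' hrlt hrlt' hc1 hc2 a a' h
  have hlt : lo t ≤ l := hlo _ _ hl.ge
  have hp : r ⊓ r' < t := inf_le_left.trans_lt hrlt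
  rw [hJr r hrlt.ne, hJr r' hrlt'.ne]
  have key : ∀ u ∈ Q, ∃ e : (S (r ⊓ r')).X, (S r).d a (J r (r ⊓ r') e) ≤ u r ∧
      (S r').d (J r' (r ⊓ r') e) a' ≤ u r' := by
    intro u hu
    obtain ⟨h1, d, h2, h3⟩ := hQ1 u hu
    exact hsep u d l h1 h2 hl h3 r r' hrlt hrlt' a a' h
  have hex : ∀ s (x : L), s < t → f x = s → ¬ x ≤ l → ∃ u ∈ Q, ¬ x ≤ u s := by
    intro s x hs hx hxl
    obtain ⟨u, hu, hxu⟩ := hQ2 x (by rw [hx]; exact hs) hxl
    exact ⟨u, hu, by rw [← hx]; exact hxu⟩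
  rcases hQ3 r r' hrlt hrlt' hc1 hc2 with hF | ⟨hN1, hN2⟩
  · -- the lower space is one point
    obtain ⟨e⟩ := (S (r ⊓ r')).ne
    have hhip : ∀ x y : (S (r ⊓ r')).X, (S (r ⊓ r')).d x y ≤ hi (r ⊓ r') := by
      intro x y
      have := hhi ((S (r ⊓ r')).d x y)
      rwa [(S (r ⊓ r')).fd] at this
    have hup : ∀ u ∈ Q, hi (r ⊓ r') ≤ u (r ⊓ r') := by
      intro u hu
      obtain ⟨h1, d, h2, h3⟩ := hQ1 u hu
      rcases h2.2 (r ⊓ r') (hi (r ⊓ r')) hp (hfhi _) with h4 | h4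
      · exact h4
      · exact absurd ((h4 (lo t) (hflo t) (hF _ _ (hfhi _) (hflo t))).trans hlt) h3
    refine ⟨e, ?_, ?_⟩
    · by_contra hc
      obtain ⟨u, hu, hxu⟩ := hex r _ hrlt ((S r).fd _ _) hc
      obtain ⟨eu, h1, h2⟩ := key u hu
      have h3 : (S r).d (J r (r ⊓ r') eu) (J r (r ⊓ r') e) ≤ u r :=
        up hlo hJ0 (hQ1 u hu).1.cf inf_le_left hrlt ((hhip _ _).trans (hup u hu))
      exact hxu (((S r).tri _ _ _).trans (sup_le h1 h3))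
    · by_contra hc
      obtain ⟨u, hu, hxu⟩ := hex r' _ hrlt' ((S r').fd _ _) hc
      obtain ⟨eu, h1, h2⟩ := key u hu
      have h3 : (S r').d (J r' (r ⊓ r') e) (J r' (r ⊓ r') eu) ≤ u r' :=
        up hlo hJ0 (hQ1 u hu).1.cf inf_le_right hrlt' ((hhip _ _).trans (hup u hu))
      exact hxu (((S r').tri _ _ _).trans (sup_le h3 h2))
  · -- nearest points
    obtain ⟨e, he⟩ := exists_nearQ (hJ r hrlt) (fun u hu => (hQ1 u hu).1.cf.1 r hrlt) hN1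
      (inf_le_left : r ⊓ r' ≤ r) a
    obtain ⟨e', he'⟩ := exists_nearQ (hJ r' hrlt') (fun u hu => (hQ1 u hu).1.cf.1 r' hrlt') hN2
      (inf_le_right : r ⊓ r' ≤ r') a'
    have k1 : (S r).d a (J r (r ⊓ r') e) ≤ l := by
      by_contra hc
      obtain ⟨u, hu, hxu⟩ := hex r _ hrlt ((S r).fd _ _) hc
      obtain ⟨eu, h1, h2⟩ := key u hu
      exact hxu (he u hu ⟨eu, h1⟩)
    have k2 : (S r').d a' (J r' (r ⊓ r') e') ≤ l := by
      by_contra hc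
      obtain ⟨u, hu, hxu⟩ := hex r' _ hrlt' ((S r').fd _ _) hc
      obtain ⟨eu, h1, h2⟩ := key u hu
      rw [(S r').symm] at h2
      exact hxu (he' u hu ⟨eu, h2⟩)
    have k3 : (S (r ⊓ r')).d e e' ≤ l := by
      by_contra hc
      obtain ⟨u, hu, hxu⟩ := hex _ _ hp ((S _).fd _ _) hc
      obtain ⟨eu, h1, h2⟩ := key u hu
      rw [(S r').symm] at h2
      have h3 := he u hu ⟨eu, h1⟩
      have h4 := he' u hu ⟨eu, h2⟩
      have h5 : (S (r ⊓ r')).d e eu ≤ u (r ⊓ r') := by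
        refine down hJ0 (hQ1 u hu).1.cf inf_le_left hrlt ?_
        refine ((S r).tri _ a _).trans (sup_le ?_ h1)
        rw [(S r).symm]
        exact h3
      have h6 : (S (r ⊓ r')).d eu e' ≤ u (r ⊓ r') := by
        refine down hJ0 (hQ1 u hu).1.cf inf_le_right hrlt' ?_
        refine ((S r').tri _ a' _).trans (sup_le ?_ h4)
        rw [(S r').symm]
        exact h2
      exact hxu (((S _).tri _ eu _).trans (sup_le h5 h6))
    refine ⟨e, k1, ?_⟩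
    refine ((S r').tri _ (J r' (r ⊓ r') e') _).trans (sup_le ?_ ?_)
    · rw [(hJ0 r' hrlt').isom _ inf_le_right]
      exact sup_le k3 (hlo _ _ (by rw [hl]; exact hrlt'.le))
    · rw [(S r').symm]
      exact k2

/-- Interpolation from below. -/
theorem itp_of_below [Finite K] {N : Set K} {W : Set L} {S : ∀ t, Sp f lo t}
    {B : ∀ t, Subgroup (Equiv.Perm (S t).X)} {J J' : ∀ t r, (S r).X → (S t).X}
    (hlo : ∀ k l, k ≤ f l → lo k ≤ l)
    (hfhi : ∀ k, f (hi k) = k) (hhi : ∀ l, l ≤ hi (f l)) {t : K}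
    (hJ : ∀ r, r < t → GoodW N W S B r J) (h0 : Good0 S t J') (hJr : ∀ r, r ≠ t → J' r = J r)
    {l : L} (hl : f l = t) (hI : FromBelow f N W l) : Itp S J' t l := by
  classical
  obtain ⟨r0, hr0, hun, hm⟩ := hI
  rw [hl] at hr0 hun
  have hun' : ∀ q, q < t → q ≤ r0 := by
    intro q hq
    obtain ⟨r, ⟨hr1, hr2⟩, hmax⟩ := (Set.toFinite {r : K | q ≤ r ∧ r < t}).exists_maximal
      ⟨q, le_rfl, hq⟩
    have hcov : r ⋖ t := ⟨hr2, fun e h1 h2 => absurd (hmax ⟨hr1.trans h1.le, h2⟩ h1.le)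
      (not_le_of_gt h1)⟩
    rw [← hun r hcov]
    exact hr1
  obtain ⟨m, hfm, hm1, hm2⟩ : ∃ m, f m = r0 ∧ (r0 ∈ N → m ∈ W) ∧
      ∀ z, f z = r0 → (z ≤ l ↔ z ≤ m) := by
    by_cases hN : r0 ∈ N
    · obtain ⟨m, hmW, hfm, hm⟩ := hm hN
      exact ⟨m, hfm, fun _ => hmW, hm⟩
    · refine ⟨l ⊓ hi r0, by rw [map_inf, hl, hfhi, inf_eq_right.2 hr0.le], fun h => absurd h hN,
        fun z hz => ⟨fun h => le_inf h (by rw [← hz]; exact hhi z), fun h => h.trans inf_le_left⟩⟩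
  have hml : m ≤ l := (hm2 m hfm).2 le_rfl
  refine itp_triv hlo h0 hl ?_
  intro r r' hrlt hrlt' hc1 hc2 a a' h
  rw [hJr r hrlt.ne, hJr r' hrlt'.ne]
  have hJ0 := (hJ r0 hr0.lt).g0
  have hrr : r ≤ r0 := hun' r hrlt
  have hrr' : r' ≤ r0 := hun' r' hrlt'
  rw [← h0.comp r r0 hrr hr0.le, ← h0.comp r' r0 hrr' hr0.le, h0.isom r0 hr0.le,
    hJr r0 hr0.lt.ne] at h
  obtain ⟨e, h1, h2⟩ := (hJ r0 hr0.lt).interp m hfm hm1 r r' hrr hrr' a a'
    ((hm2 _ ((S r0).fd _ _)).1 (le_sup_left.trans h))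
  refine ⟨e, ?_, ?_⟩
  · rw [← hJ0.comp _ _ inf_le_left hrr, hJ0.isom r hrr] at h1
    exact (le_sup_left.trans h1).trans hml
  · rw [← hJ0.comp _ _ inf_le_right hrr', hJ0.isom r' hrr'] at h2
    exact (le_sup_left.trans h2).trans hml

/-- Separation by families when there is only one lower cover. -/
theorem sep_of_below {N : Set K} {W : Set L} {S : ∀ t, Sp f lo t}
    {B : ∀ t, Subgroup (Equiv.Perm (S t).X)} {J J' : ∀ t r, (S r).X → (S t).X}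
    {t : K} (hJ : ∀ r, r < t → GoodW N W S B r J) (h0 : Good0 S t J')
    (hJr : ∀ r, r ≠ t → J' r = J r) {r0 : K} (hr0 : r0 < t) (hun : ∀ q, q < t → q ≤ r0)
    (u : K → L) (d l : L) (hu : Fam f N W t u) (hc : CutBy f t u d) (hl : f l = t) (hdl : ¬ d ≤ l)
    (r r' : K) (hr : r < t) (hr' : r' < t) (a : (S r).X) (a' : (S r').X)
    (h : (S t).d (J' t r a) (J' t r' a') ≤ l) : ∃ e : (S (r ⊓ r')).X,
      (S r).d a (J r (r ⊓ r') e) ≤ u r ∧ (S r').d (J r' (r ⊓ r') e) a' ≤ u r' := by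
  have hJ0 := (hJ r0 hr0).g0
  have hrr : r ≤ r0 := hun r hr
  have hrr' : r' ≤ r0 := hun r' hr'
  rw [← h0.comp r r0 hrr hr0.le, ← h0.comp r' r0 hrr' hr0.le, h0.isom r0 hr0.le,
    hJr r0 hr0.ne] at h
  have h1 : (S r0).d (J r0 r a) (J r0 r' a') ≤ u r0 := by
    rcases hc.2 r0 _ hr0 ((S r0).fd (J r0 r a) (J r0 r' a')) with h2 | h2
    · exact h2
    · exact absurd (h2 l hl (le_sup_left.trans h)) hdl
  obtain ⟨e, h2, h3⟩ := (hJ r0 hr0).interp (u r0) (hu.1 r0 hr0).1 (hu.1 r0 hr0).2 r r' hrr hrr'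
    a a' h1
  refine ⟨e, ?_, ?_⟩
  · rw [← hJ0.comp _ _ inf_le_left hrr, hJ0.isom r hrr] at h2
    exact (hu.2 r r0 _ hrr hr0 ((S r).fd _ _)).1 (le_sup_left.trans h2)
  · rw [← hJ0.comp _ _ inf_le_right hrr', hJ0.isom r' hrr'] at h3
    exact (hu.2 r' r0 _ hrr' hr0 ((S r').fd _ _)).1 (le_sup_left.trans h3)

end Vale.Agent.P183.H411
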