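import Vale.Agent.P183.H411.Itp
import Vale.Agent.P183.H238.StepU

/-!
One step of the construction: a tight level, or a transposed level.
-/

set_option linter.all false

namespace Vale.Agent.P183.H411

open Vale.Agent.P183 Vale.Agent.P183.H330 Vale.Agent.P183.H330G Vale.Agent.P183.H238

variable {L K : Type} [Lattice L] [Lattice K] {f : LatticeHom L K} {lo hi : K → L}

/-- **One step**: a tight level. -/
theorem exists_stepT [Finite L] [Finite K] {N : Set K} {W : Set L} {S : ∀ t, Sp f lo t}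
    {B : ∀ t, Subgroup (Equiv.Perm (S t).X)} {J : ∀ t r, (S r).X → (S t).X}
    (hB : ∀ s, B s ≤ isoSub (S s)) (hlo : ∀ k l, k ≤ f l → lo k ≤ l)
    (hflo : ∀ k, f (lo k) = k) (hfhi : ∀ k, f (hi k) = k) (hhi : ∀ l, l ≤ hi (f l)) {t : K}
    (hJ : ∀ r, r < t → GoodW N W S B r J) (D : Dl f t) {P : (K → L) → Prop}
    (hG : ∀ u, CF f t u → P u → GlueOK J t u) (hPF : ∀ u, Fam f N W t u → P u)
    (hCP : ∀ r x y, r < t → f x = r → f y = t → ¬ x ≤ y → ∃ (u : K → L) (d : L),
      f d = t ∧ ¬ d ≤ y ∧ ¬ x ≤ u r ∧ CF f t u ∧ P u ∧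
        ∀ q z, q < t → f z = q → z ≤ u q ∨ ∀ w, f w = t → z ≤ w → d ≤ w)
    (mk : (D.A × Blk L t (fun r => (S r).X) D.A → T5) → (S t).X)
    (hmks : Function.Surjective mk)
    (hmk : ∀ v w l, f l = t → ((S t).d (mk v) (mk w) ≤ l ↔ BE (D.κ l) v w))
    (hBt : B t = isoSub (S t)) (htN : t ∈ N)
    (hW : ∀ l, l ∈ W → f l = t → Interpolated f N W l ∨ FromBelow f N W l) :
    ∃ J' : ∀ t r, (S r).X → (S t).X, (∀ r, r ≠ t → J' r = J r) ∧ GoodW N W S B t J' := by
  classical
  have hne : Nonempty (S t).X := (S t).ne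
  have hJ0 : ∀ r, r < t → Good0 S r J := fun r hr => (hJ r hr).g0
  let new : ∀ r, (S r).X → (S t).X := fun r a =>
    if h : r < t then mk (vl J D P r h a) else if h' : r = t then h' ▸ a else Classical.arbitrary _
  have new_lt : ∀ r (h : r < t) a, new r a = mk (vl J D P r h a) := fun r h a => dif_pos h
  have new_self : ∀ a, new t a = a := by
    intro a
    show (if h : t < t then mk (vl J D P t h a) else if h' : t = t then h' ▸ a
      else Classical.arbitrary _) = a
    rw [dif_neg (lt_irrefl t), dif_pos rfl]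
  let J' : ∀ t r, (S r).X → (S t).X := Function.update J t new
  have hJt : J' t = new := Function.update_self _ _ _
  have hJr : ∀ r, r ≠ t → J' r = J r := fun r h => Function.update_of_ne h _ _
  have hcomp : ∀ q r, q ≤ r → r ≤ t → ∀ a, J' t r (J' r q a) = J' t q a := by
    intro q r hqr hrt a
    rcases eq_or_lt_of_le hrt with rfl | hr
    · rw [hJt, new_self]
    · have hq : q < t := hqr.trans_lt hr
      rw [hJt, hJr r hr.ne, new_lt r hr, new_lt q hq, vl_comp D P hqr hr a]
  have hisom : ∀ r, r ≤ t → ∀ a a', (S t).d (J' t r a) (J' t r a') = (S r).d a a' ⊔ lo t := by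
    intro r hrt a a'
    rcases eq_or_lt_of_le hrt with rfl | hr
    · rw [hJt, new_self, new_self]
      exact (sup_eq_left.2 (hlo _ _ ((S _).fd _ _).ge)).symm
    · rw [hJt, new_lt r hr, new_lt r hr]
      have hft : f ((S r).d a a' ⊔ lo t) = t := by
        rw [map_sup, (S r).fd, hflo, sup_eq_right.2 hr.le]
      refine le_antisymm ?_ (sup_le ?_ (hlo _ _ ((S t).fd _ _).ge))
      · rw [hmk _ _ _ hft, vl_isom D hlo hflo hJ0 hG hCP hr a a' hft]
        exact le_sup_left
      · rw [← vl_isom D hlo hflo hJ0 hG hCP hr a a' ((S t).fd _ _), ← hmk _ _ _ ((S t).fd _ _)]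
  have h0 : Good0 S t J' := ⟨fun a => by rw [hJt]; exact new_self a, hcomp, hisom⟩
  refine ⟨J', hJr, h0, ?_, fun h => absurd htN h, ?_⟩
  · -- interpolation
    intro l hl hlW
    rcases hW l (hlW htN) hl with hI | hI
    · refine itp_of_interpolated (hi := hi) hlo hflo hfhi hhi hJ h0 hJr ?_ hl hI
      intro u d l hu hc hl hdl r r' hr hr' a a' h
      rw [hJt, new_lt r hr, new_lt r' hr', hmk _ _ l hl] at h
      exact sep_itp D hlo hflo hJ0 hu.cf (hPF u hu)
        (fun q hq => (hJ q hq).interp (u q) (hu.1 q hq).1 (hu.1 q hq).2) hc.1 hl hdl hc.2 hr hr'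
        a a' h
    · exact itp_of_below (hi := hi) hlo hfhi hhi hJ h0 hJr hl hI
  · -- extension
    intro s g hg
    have hg' : CompatB S B J s t g := by
      intro r hsr hrt
      refine ⟨(hg r hsr hrt).1, fun q hq1 hq2 a => ?_⟩
      have := (hg r hsr hrt).2 q hq1 hq2 a
      rwa [hJr r hrt.ne] at this
    obtain ⟨π, hπ⟩ := vl_ext D hG hB hg'
    have hmem := rei_mem (D := D) (Φ := Blk L t (fun r => (S r.1).X) D.A)
      (Sy f t D.κ).one_mem π
    have hmem' := (Sy f t (EE D (Blk L t (fun r => (S r.1).X) D.A))).inv_mem hmem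
    have heq : ∀ v w, mk v = mk w ↔ EE D (Blk L t (fun r => (S r.1).X) D.A) (lo t) v w := by
      intro v w
      rw [← (S t).self]
      constructor
      · intro h
        exact (hmk v w _ (hflo t)).1 h.le
      · intro h
        exact le_antisymm ((hmk v w _ (hflo t)).2 h) (hlo _ _ ((S t).fd _ _).ge)
    obtain ⟨γ, hγ⟩ := H330D.exists_perm_mk mk hmks
      (fun v => rei D (Blk L t (fun r => (S r.1).X) D.A) 1 π v)
      (fun v => (rei D (Blk L t (fun r => (S r.1).X) D.A) 1 π)⁻¹ v) (by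
      intro v w h
      rw [heq] at h ⊢
      exact (hmem _ (hflo t) _ _).2 h) (by
      intro v w h
      rw [heq] at h ⊢
      exact (hmem' _ (hflo t) _ _).2 h)
      (fun v => (rei D (Blk L t (fun r => (S r.1).X) D.A) 1 π).symm_apply_apply v)
      (fun v => (rei D (Blk L t (fun r => (S r.1).X) D.A) 1 π).apply_symm_apply v)
    refine ⟨γ, ?_, ?_⟩
    · rw [hBt]
      intro x y
      obtain ⟨v, rfl⟩ := hmks x
      obtain ⟨w, rfl⟩ := hmks y
      rw [hγ, hγ]
      refine le_antisymm ?_ ?_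
      · rw [hmk _ _ _ ((S t).fd _ _)]
        exact (hmem _ ((S t).fd _ _) _ _).2 ((hmk _ _ _ ((S t).fd _ _)).1 le_rfl)
      · rw [hmk _ _ _ ((S t).fd _ _)]
        exact (hmem _ ((S t).fd _ _) _ _).1 ((hmk _ _ _ ((S t).fd _ _)).1 le_rfl)
    · intro r hsr hrt a
      rw [hJt, new_lt r hrt, new_lt r hrt, hγ]
      congr 1
      funext z
      obtain ⟨x, φ⟩ := z
      exact hπ r hrt hsr a x φ

/-- **One step**: a transposed level. -/
theorem exists_stepU [Finite L] [Finite K] {N : Set K} {W : Set L} {S : ∀ t, Sp f lo t}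
    {B : ∀ t, Subgroup (Equiv.Perm (S t).X)} {J : ∀ t r, (S r).X → (S t).X}
    (hB : ∀ s, B s ≤ isoSub (S s)) (hlo : ∀ k l, k ≤ f l → lo k ≤ l)
    (hflo : ∀ k, f (lo k) = k) (hfhi : ∀ k, f (hi k) = k) (hhi : ∀ l, l ≤ hi (f l)) {t : K}
    (hJ : ∀ r, r < t → GoodW N W S B r J) {r0 : K} (hr0 : r0 < t) (hun : ∀ q, q < t → q ≤ r0)
    (mk : (S r0).X → (S t).X) (hmks : Function.Surjective mk)
    (hmk : ∀ x y l, f l = t → ((S t).d (mk x) (mk y) ≤ l ↔ (S r0).d x y ≤ l))
    (hBt : B t = isoSub (S t)) (htN : t ∈ N)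
    (hW : ∀ l, l ∈ W → f l = t → Interpolated f N W l ∨ FromBelow f N W l) :
    ∃ J' : ∀ t r, (S r).X → (S t).X, (∀ r, r ≠ t → J' r = J r) ∧ GoodW N W S B t J' := by
  classical
  have hne : Nonempty (S t).X := (S t).ne
  have hJ0 : ∀ r, r < t → Good0 S r J := fun r hr => (hJ r hr).g0
  let new : ∀ r, (S r).X → (S t).X := fun r a =>
    if h : r < t then mk (J r0 r a) else if h' : r = t then h' ▸ a else Classical.arbitrary _
  have new_lt : ∀ r (h : r < t) a, new r a = mk (J r0 r a) := fun r h a => dif_pos h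
  have new_self : ∀ a, new t a = a := by
    intro a
    show (if h : t < t then mk (J r0 t a) else if h' : t = t then h' ▸ a
      else Classical.arbitrary _) = a
    rw [dif_neg (lt_irrefl t), dif_pos rfl]
  let J' : ∀ t r, (S r).X → (S t).X := Function.update J t new
  have hJt : J' t = new := Function.update_self _ _ _
  have hJr : ∀ r, r ≠ t → J' r = J r := fun r h => Function.update_of_ne h _ _
  have hlot : lo r0 ≤ lo t := hlo _ _ (by rw [hflo]; exact hr0.le)
  have hcomp : ∀ q r, q ≤ r → r ≤ t → ∀ a, J' t r (J' r q a) = J' t q a := by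
    intro q r hqr hrt a
    rcases eq_or_lt_of_le hrt with rfl | hr
    · rw [hJt, new_self]
    · have hq : q < t := hqr.trans_lt hr
      rw [hJt, hJr r hr.ne, new_lt r hr, new_lt q hq, (hJ0 r0 hr0).comp q r hqr (hun r hr)]
  have hisom : ∀ r, r ≤ t → ∀ a a', (S t).d (J' t r a) (J' t r a') = (S r).d a a' ⊔ lo t := by
    intro r hrt a a'
    rcases eq_or_lt_of_le hrt with rfl | hr
    · rw [hJt, new_self, new_self]
      exact (sup_eq_left.2 (hlo _ _ ((S _).fd _ _).ge)).symm
    · rw [hJt, new_lt r hr, new_lt r hr]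
      have hft : f ((S r).d a a' ⊔ lo t) = t := by
        rw [map_sup, (S r).fd, hflo, sup_eq_right.2 hr.le]
      refine le_antisymm ?_ (sup_le ?_ (hlo _ _ ((S t).fd _ _).ge))
      · rw [hmk _ _ _ hft, (hJ0 r0 hr0).isom r (hun r hr)]
        exact sup_le_sup_left hlot _
      · have h1 := (hmk _ _ _ ((S t).fd (mk (J r0 r a)) (mk (J r0 r a')))).1 le_rfl
        rw [(hJ0 r0 hr0).isom r (hun r hr)] at h1
        exact le_sup_left.trans h1
  have h0 : Good0 S t J' := ⟨fun a => by rw [hJt]; exact new_self a, hcomp, hisom⟩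
  refine ⟨J', hJr, h0, ?_, fun h => absurd htN h, ?_⟩
  · -- interpolation
    intro l hl hlW
    rcases hW l (hlW htN) hl with hI | hI
    · exact itp_of_interpolated (hi := hi) hlo hflo hfhi hhi hJ h0 hJr
        (sep_of_below hJ h0 hJr hr0 hun) hl hI
    · exact itp_of_below (hi := hi) hlo hfhi hhi hJ h0 hJr hl hI
  · -- extension
    intro s g hg
    by_cases hs : s ≤ r0
    swap
    · exact ⟨1, (B t).one_mem, fun r hsr hrt => absurd (hsr.trans (hun r hrt)) hs⟩
    have hg0 := hg r0 hs hr0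
    have hiso : ∀ x y, (S r0).d (g r0 x) (g r0 y) = (S r0).d x y := hB r0 hg0.1
    have hiso' : ∀ x y, (S r0).d ((g r0)⁻¹ x) ((g r0)⁻¹ y) = (S r0).d x y :=
      (isoSub (S r0)).inv_mem (hB r0 hg0.1)
    have heq : ∀ x y, mk x = mk y ↔ (S r0).d x y ≤ lo t := by
      intro x y
      rw [← (S t).self, ← hmk x y _ (hflo t)]
      exact ⟨fun h => h.le, fun h => le_antisymm h (hlo _ _ ((S t).fd _ _).ge)⟩
    obtain ⟨γ, hγ⟩ := H330D.exists_perm_mk mk hmks (fun x => g r0 x) (fun x => (g r0)⁻¹ x) (by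
      intro x y h
      rw [heq] at h ⊢
      rw [hiso]
      exact h) (by
      intro x y h
      rw [heq] at h ⊢
      rw [hiso']
      exact h) (fun x => (g r0).symm_apply_apply x) (fun x => (g r0).apply_symm_apply x)
    refine ⟨γ, ?_, ?_⟩
    · rw [hBt]
      intro x y
      obtain ⟨v, rfl⟩ := hmks x
      obtain ⟨w, rfl⟩ := hmks y
      rw [hγ, hγ]
      refine le_antisymm ?_ ?_
      · rw [hmk _ _ _ ((S t).fd _ _), hiso, ← hmk _ _ _ ((S t).fd _ _)]
      · rw [hmk _ _ _ ((S t).fd _ _), ← hiso, ← hmk _ _ _ ((S t).fd _ _)]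
    · intro r hsr hrt a
      rw [hJt, new_lt r hrt, new_lt r hrt, hγ]
      have h1 := hg0.2 r hsr (hun r hrt) a
      rw [hJr r0 hr0.ne] at h1
      rw [h1]

end Vale.Agent.P183.H411
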