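import Vale.Agent.P183.H411.Glue

/-!
Gluing along the lower covers of a tree-like element.
-/

set_option linter.all false

namespace Vale.Agent.P183.H411

open Vale.Agent.P183 Vale.Agent.P183.H330 Vale.Agent.P183.H330G Vale.Agent.P183.H238

variable {L K : Type} [Lattice L] [Lattice K] {f : LatticeHom L K} {lo hi : K → L}

section

variable {S : ∀ t, Sp f lo t} {J : ∀ t r, (S r).X → (S t).X} {t : K} {u : K → L}

/-- `V` is saturated and compatible over the set `E`. -/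
def SatE (J : ∀ t r, (S r).X → (S t).X) (t : K) (u : K → L) (E : Set K)
    (V : ∀ r : {r : K // r < t}, Set (S r.1).X) : Prop :=
  (∀ q (hq : q < t), q ∈ E → ∀ a b, (S q).d a b ≤ u q → (a ∈ V ⟨q, hq⟩ ↔ b ∈ V ⟨q, hq⟩)) ∧
    ∀ p q (hpq : p ≤ q) (hq : q < t), p ∈ E → q ∈ E → ∀ a : (S p).X,
      (J q p a ∈ V ⟨q, hq⟩ ↔ a ∈ V ⟨p, hpq.trans_lt hq⟩)

/-- Families over `E` extend to `E'`. -/
def ExtE (J : ∀ t r, (S r).X → (S t).X) (t : K) (u : K → L) (E E' : Set K) : Prop :=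
  ∀ V : ∀ r : {r : K // r < t}, Set (S r.1).X, SatE J t u E V →
    ∃ V' : ∀ r : {r : K // r < t}, Set (S r.1).X, SatE J t u E' V' ∧
      ∀ q (hq : q < t), q ∈ E → V' ⟨q, hq⟩ = V ⟨q, hq⟩

theorem SatE.mono {E E' : Set K} (h : E ⊆ E') {V : ∀ r : {r : K // r < t}, Set (S r.1).X}
    (hV : SatE J t u E' V) : SatE J t u E V :=
  ⟨fun q hq hE => hV.1 q hq (h hE), fun p q hpq hq hp hq' => hV.2 p q hpq hq (h hp) (h hq')⟩

/-- A family over the elements below `m` is determined by its value at `m`. -/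
theorem SatE.det {m : K} (hm : m < t) {V V' : ∀ r : {r : K // r < t}, Set (S r.1).X}
    (h : SatE J t u (Set.Iic m) V) (h' : SatE J t u (Set.Iic m) V')
    (he : V ⟨m, hm⟩ = V' ⟨m, hm⟩) (q : K) (hq : q < t) (hqm : q ≤ m) :
    V ⟨q, hq⟩ = V' ⟨q, hq⟩ := by
  ext b
  rw [← h.2 q m hqm hm hqm le_rfl b, ← h'.2 q m hqm hm hqm le_rfl b, he]

/-- The union of two families. -/
theorem union_E {D : Set K} (hD : ∀ p q, p ≤ q → q ∈ D → p ∈ D) {c : K}
    {V1 V2 : ∀ r : {r : K // r < t}, Set (S r.1).X} (h1 : SatE J t u D V1)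
    (h2 : SatE J t u (Set.Iic c) V2)
    (he : ∀ q (hq : q < t), q ∈ D → q ≤ c → V1 ⟨q, hq⟩ = V2 ⟨q, hq⟩) :
    ∃ V : ∀ r : {r : K // r < t}, Set (S r.1).X, SatE J t u (D ∪ Set.Iic c) V ∧
      (∀ q (hq : q < t), q ∈ D → V ⟨q, hq⟩ = V1 ⟨q, hq⟩) ∧
      ∀ q (hq : q < t), q ≤ c → V ⟨q, hq⟩ = V2 ⟨q, hq⟩ := by
  classical
  let V : ∀ r : {r : K // r < t}, Set (S r.1).X := fun r => if r.1 ∈ D then V1 r else V2 r
  have e1 : ∀ q (hq : q < t), q ∈ D → V ⟨q, hq⟩ = V1 ⟨q, hq⟩ := fun q hq h => if_pos h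
  have e2 : ∀ q (hq : q < t), q ≤ c → V ⟨q, hq⟩ = V2 ⟨q, hq⟩ := by
    intro q hq h
    by_cases hqD : q ∈ D
    · rw [e1 q hq hqD, he q hq hqD h]
    · exact if_neg hqD
  refine ⟨V, ⟨?_, ?_⟩, e1, e2⟩
  · intro q hq hqE a b hab
    by_cases hqD : q ∈ D
    · rw [e1 q hq hqD]
      exact h1.1 q hq hqD a b hab
    · have hqc : q ≤ c := by
        rcases hqE with h | h
        · exact absurd h hqD
        · exact h
      rw [e2 q hq hqc]
      exact h2.1 q hq hqc a b hab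
  · intro p q hpq hq hpE hqE a
    by_cases hqD : q ∈ D
    · have hpD : p ∈ D := hD p q hpq hqD
      rw [e1 q hq hqD, e1 p (hpq.trans_lt hq) hpD]
      exact h1.2 p q hpq hq hpD hqD a
    · have hqc : q ≤ c := by
        rcases hqE with h | h
        · exact absurd h hqD
        · exact h
      rw [e2 q hq hqc, e2 p (hpq.trans_lt hq) (hpq.trans hqc)]
      exact h2.2 p q hpq hq (hpq.trans hqc) hqc a

variable (hlo : ∀ k l, k ≤ f l → lo k ≤ l) (hJ : ∀ r, r < t → Good0 S r J) (hu : CF f t u)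

include hlo hJ hu in
/-- Families over the elements below `m` extend to the elements below `c`. -/
theorem ext_down {m c : K} (hmc : m ≤ c) (hc : c < t) : ExtE J t u (Set.Iic m) (Set.Iic c) := by
  intro V hV
  have hm : m < t := hmc.trans_lt hc
  let W : Set (S c).X := {x | ∃ e, e ∈ V ⟨m, hm⟩ ∧ (S c).d x (J c m e) ≤ u c}
  have hW : ∀ x y, (S c).d x y ≤ u c → (x ∈ W ↔ y ∈ W) := by
    intro x y hxy
    constructor
    · rintro ⟨e, h1, h2⟩
      exact ⟨e, h1, ((S c).tri y x _).trans (sup_le (by rw [(S c).symm]; exact hxy) h2)⟩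
    · rintro ⟨e, h1, h2⟩
      exact ⟨e, h1, ((S c).tri x y _).trans (sup_le hxy h2)⟩
  refine ⟨fun q => {b | J c q.1 b ∈ W}, ⟨?_, ?_⟩, ?_⟩
  · intro q hq hqc a b hab
    exact hW _ _ (up hlo hJ hu hqc hc hab)
  · intro p q hpq hq hpc hqc a
    show J c q (J q p a) ∈ W ↔ J c p a ∈ W
    rw [(hJ c hc).comp p q hpq hqc]
  · intro q hq hqm
    ext b
    show J c q b ∈ W ↔ b ∈ V ⟨q, hq⟩
    rw [← hV.2 q m hqm hm hqm le_rfl b, ← (hJ c hc).comp q m hqm hmc b]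
    constructor
    · rintro ⟨e, h1, h2⟩
      exact (hV.1 m hm le_rfl _ _ (down hJ hu hmc hc h2)).2 h1
    · intro h
      refine ⟨_, h, ?_⟩
      rw [((S c).self _ _).2 rfl]
      exact hlo _ _ (hu.1 c hc).ge

include hlo hJ hu in
/-- Families over the elements between `s` and `c` extend to the elements below `c`. -/
theorem ext_up {s c : K} (hsc : s ≤ c) (hc : c < t) :
    ExtE J t u (Set.Ici s ∩ Set.Iic c) (Set.Iic c) := by
  intro V hV
  refine ⟨fun q => {b | J c q.1 b ∈ V ⟨c, hc⟩}, ⟨?_, ?_⟩, ?_⟩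
  · intro q hq hqc a b hab
    exact hV.1 c hc ⟨hsc, le_rfl⟩ _ _ (up hlo hJ hu hqc hc hab)
  · intro p q hpq hq hpc hqc a
    show J c q (J q p a) ∈ V ⟨c, hc⟩ ↔ J c p a ∈ V ⟨c, hc⟩
    rw [(hJ c hc).comp p q hpq hqc]
  · intro q hq hqE
    ext b
    exact hV.2 q c hqE.2 hc hqE ⟨hsc, le_rfl⟩ b

include hlo hJ hu in
/-- Adding one lower cover. -/
theorem step_E {D : Set K} (hD : ∀ p q, p ≤ q → q ∈ D → p ∈ D) (hDt : ∀ q, q ∈ D → q < t) {c : K}
    (hc : c < t) (hm : (∀ q, q ∉ D) ∨ ∃ m, m ∈ D ∧ m ≤ c ∧ ∀ q, q ∈ D → q ≤ c → q ≤ m)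
    (hA : ∀ s, ExtE J t u (Set.Ici s ∩ D) D) (hB : ∀ m, m ∈ D → ExtE J t u (Set.Iic m) D) :
    (∀ s, ExtE J t u (Set.Ici s ∩ (D ∪ Set.Iic c)) (D ∪ Set.Iic c)) ∧
      ∀ m, m ∈ D ∪ Set.Iic c → ExtE J t u (Set.Iic m) (D ∪ Set.Iic c) := by
  classical
  have hIic : ∀ m, m ∈ D → Set.Iic m ⊆ D := fun m hm q hq => hD q m hq hm
  -- extend a family over `D` to `c`
  have ext1 : ∀ V1 : ∀ r : {r : K // r < t}, Set (S r.1).X, SatE J t u D V1 →
      ∃ V2 : ∀ r : {r : K // r < t}, Set (S r.1).X, SatE J t u (Set.Iic c) V2 ∧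
        ∀ q (hq : q < t), q ∈ D → q ≤ c → V1 ⟨q, hq⟩ = V2 ⟨q, hq⟩ := by
    intro V1 hV1
    rcases hm with hm | ⟨m, hmD, hmc, hmq⟩
    · refine ⟨fun _ => ∅, ⟨fun q hq _ a b _ => Iff.rfl, fun p q hpq hq _ _ a => Iff.rfl⟩,
        fun q hq hqD => absurd hqD (hm q)⟩
    · obtain ⟨V2, h1, h2⟩ := ext_down hlo hJ hu hmc hc V1 (hV1.mono (hIic m hmD))
      exact ⟨V2, h1, fun q hq hqD hqc => (h2 q hq (hmq q hqD hqc)).symm⟩
  -- extend a family over the elements below `c` to `D`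
  have ext2 : ∀ V2 : ∀ r : {r : K // r < t}, Set (S r.1).X, SatE J t u (Set.Iic c) V2 →
      ∃ V1 : ∀ r : {r : K // r < t}, Set (S r.1).X, SatE J t u D V1 ∧
        ∀ q (hq : q < t), q ∈ D → q ≤ c → V1 ⟨q, hq⟩ = V2 ⟨q, hq⟩ := by
    intro V2 hV2
    rcases hm with hm | ⟨m, hmD, hmc, hmq⟩
    · refine ⟨V2, ⟨fun q hq hqD => absurd hqD (hm q), fun p q hpq hq _ hqD => absurd hqD (hm q)⟩,
        fun q hq hqD => absurd hqD (hm q)⟩
    · obtain ⟨V1, h1, h2⟩ := hB m hmD V2 (hV2.mono (Set.Iic_subset_Iic.2 hmc))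
      exact ⟨V1, h1, fun q hq hqD hqc => h2 q hq (hmq q hqD hqc)⟩
  refine ⟨fun s V hV => ?_, fun m0 hm0 V hV => ?_⟩
  · by_cases hs : s ≤ c
    · have hsub1 : Set.Ici s ∩ Set.Iic c ⊆ Set.Ici s ∩ (D ∪ Set.Iic c) :=
        fun q hq => ⟨hq.1, Or.inr hq.2⟩
      have hsub2 : Set.Ici s ∩ D ⊆ Set.Ici s ∩ (D ∪ Set.Iic c) :=
        fun q hq => ⟨hq.1, Or.inl hq.2⟩
      obtain ⟨V2, h2, e2⟩ := ext_up hlo hJ hu hs hc V (hV.mono hsub1)
      by_cases hsD : s ∈ D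
      · obtain ⟨V1, h1, e1⟩ := hA s V (hV.mono hsub2)
        obtain ⟨V', h3, e3, e4⟩ := union_E hD h1 h2 (by
          intro q hq hqD hqc
          rcases hm with hm | ⟨m, hmD, hmc, hmq⟩
          · exact absurd hqD (hm q)
          · have hsm : s ≤ m := hmq s hsD hs
            have hmt : m < t := hDt m hmD
            refine SatE.det hmt (h1.mono (hIic m hmD)) (h2.mono (Set.Iic_subset_Iic.2 hmc)) ?_ q hq
              (hmq q hqD hqc)
            rw [e1 m hmt ⟨hsm, hmD⟩, e2 m hmt ⟨hsm, hmc⟩])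
        refine ⟨V', h3, fun q hq hqE => ?_⟩
        rcases hqE.2 with h | h
        · rw [e3 q hq h, e1 q hq ⟨hqE.1, h⟩]
        · rw [e4 q hq h, e2 q hq ⟨hqE.1, h⟩]
      · obtain ⟨V1, h1, e1⟩ := ext2 V2 h2
        obtain ⟨V', h3, e3, e4⟩ := union_E hD h1 h2 e1
        refine ⟨V', h3, fun q hq hqE => ?_⟩
        rcases hqE.2 with h | h
        · exact absurd (hD s q hqE.1 h) hsD
        · rw [e4 q hq h, e2 q hq ⟨hqE.1, h⟩]
    · have hsub2 : Set.Ici s ∩ D ⊆ Set.Ici s ∩ (D ∪ Set.Iic c) :=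
        fun q hq => ⟨hq.1, Or.inl hq.2⟩
      obtain ⟨V1, h1, e1⟩ := hA s V (hV.mono hsub2)
      obtain ⟨V2, h2, e2⟩ := ext1 V1 h1
      obtain ⟨V', h3, e3, e4⟩ := union_E hD h1 h2 e2
      refine ⟨V', h3, fun q hq hqE => ?_⟩
      rcases hqE.2 with h | h
      · rw [e3 q hq h, e1 q hq ⟨hqE.1, h⟩]
      · exact absurd (le_trans hqE.1 h) hs
  · by_cases hmD : m0 ∈ D
    · obtain ⟨V1, h1, e1⟩ := hB m0 hmD V hV
      obtain ⟨V2, h2, e2⟩ := ext1 V1 h1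
      obtain ⟨V', h3, e3, e4⟩ := union_E hD h1 h2 e2
      exact ⟨V', h3, fun q hq hqm => by rw [e3 q hq (hD q m0 hqm hmD), e1 q hq hqm]⟩
    · have hmc : m0 ≤ c := by
        rcases hm0 with h | h
        · exact absurd h hmD
        · exact h
      obtain ⟨V2, h2, e2⟩ := ext_down hlo hJ hu hmc hc V hV
      obtain ⟨V1, h1, e1⟩ := ext2 V2 h2
      obtain ⟨V', h3, e3, e4⟩ := union_E hD h1 h2 e1
      exact ⟨V', h3, fun q hq hqm => by rw [e4 q hq (le_trans hqm hmc), e2 q hq hqm]⟩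

include hlo hJ hu in
/-- **Gluing along a tree of lower covers.** -/
theorem glue_of_tree [Finite K] (hT : TreeAt t) : GlueOK J t u := by
  classical
  obtain ⟨n, c, hc, hp⟩ := hT
  have hct : ∀ i, i < n → c i < t := fun i hi => ((hc (c i)).2 ⟨i, hi, rfl⟩).lt
  have key : ∀ j, j ≤ n →
      (∀ s, ExtE J t u (Set.Ici s ∩ {q | ∃ i, i < j ∧ q ≤ c i}) {q | ∃ i, i < j ∧ q ≤ c i}) ∧
      ∀ m, m ∈ {q | ∃ i, i < j ∧ q ≤ c i} → ExtE J t u (Set.Iic m) {q | ∃ i, i < j ∧ q ≤ c i} := by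
    intro j
    induction j with
    | zero =>
      intro _
      refine ⟨fun s V _ => ⟨V, ⟨?_, ?_⟩, fun _ _ _ => rfl⟩, ?_⟩
      · rintro q hq ⟨i, hi, _⟩
        exact absurd hi (Nat.not_lt_zero i)
      · rintro p q hpq hq ⟨i, hi, _⟩
        exact absurd hi (Nat.not_lt_zero i)
      · rintro m ⟨i, hi, _⟩
        exact absurd hi (Nat.not_lt_zero i)
    | succ j ih =>
      intro hj
      obtain ⟨hA, hB⟩ := ih (by omega)
      have hset : {q | ∃ i, i < j + 1 ∧ q ≤ c i} = {q | ∃ i, i < j ∧ q ≤ c i} ∪ Set.Iic (c j) := by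
        ext q
        constructor
        · rintro ⟨i, hi, hq⟩
          rcases Nat.lt_succ_iff_lt_or_eq.1 hi with h | h
          · exact Or.inl ⟨i, h, hq⟩
          · subst h
            exact Or.inr hq
        · rintro (⟨i, hi, hq⟩ | hq)
          · exact ⟨i, by omega, hq⟩
          · exact ⟨j, by omega, hq⟩
      rw [hset]
      refine step_E hlo hJ hu ?_ ?_ (hct j (by omega)) ?_ hA hB
      · rintro p q hpq ⟨i, hi, hq⟩
        exact ⟨i, hi, hpq.trans hq⟩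
      · rintro q ⟨i, hi, hq⟩
        exact hq.trans_lt (hct i (by omega))
      · by_cases hj0 : j = 0
        · subst hj0
          left
          rintro q ⟨i, hi, _⟩
          exact absurd hi (Nat.not_lt_zero i)
        · right
          obtain ⟨p, hpj, hp'⟩ := hp j (by omega) (Nat.pos_of_ne_zero hj0)
          refine ⟨c p ⊓ c j, ⟨p, hpj, inf_le_left⟩, inf_le_right, ?_⟩
          rintro q ⟨i, hi, hq⟩ hqc
          exact le_inf ((le_inf hq hqc).trans (hp' i hi)) hqc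
  have hall : ∀ q, q < t → ∃ i, i < n ∧ q ≤ c i := by
    intro q hq
    obtain ⟨r, ⟨hr1, hr2⟩, hmax⟩ := (Set.toFinite {r : K | q ≤ r ∧ r < t}).exists_maximal
      ⟨q, le_rfl, hq⟩
    have hcov : r ⋖ t := ⟨hr2, fun e h1 h2 => absurd (hmax ⟨hr1.trans h1.le, h2⟩ h1.le)
      (not_le_of_gt h1)⟩
    obtain ⟨i, hi, hci⟩ := (hc r).1 hcov
    exact ⟨i, hi, by rw [hci]; exact hr1⟩
  intro s V hV
  obtain ⟨V', h1, h2⟩ := (key n le_rfl).1 s V ⟨fun q hq hqE => hV.1 q hq hqE.1,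
    fun p q hpq hq hpE _ => hV.2 p q hpq hq hpE.1⟩
  exact ⟨V', ⟨fun q hq => h1.1 q hq (hall q hq),
    fun p q hpq hq => h1.2 p q hpq hq (hall p (hpq.trans_lt hq)) (hall q hq)⟩,
    fun q hq hsq => h2 q hq ⟨hsq, hall q hq⟩⟩

end

end Vale.Agent.P183.H411
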